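import Vale.Agent.P042.Low

namespace Vale.Agent.Results.P042.SquareLower

theorem result : ∃ c : ℝ, 0 < c ∧ ∀ N : ℕ, 1 ≤ N → ∃ A : Finset ℤ,
    A ⊆ Finset.Icc (1 : ℤ) N ∧
    (∀ a ∈ A, ∀ b ∈ A, ∀ n : ℤ, 1 ≤ n → a - b ≠ n ^ 2) ∧
    c * (N : ℝ) ^ (189 / 250 : ℝ) ≤ A.card := by
  obtain ⟨c, hc, h⟩ := Vale.Agent.P042.lower
  refine ⟨c, hc, fun N hN => ?_⟩
  obtain ⟨A, ⟨h1, h2⟩, h3⟩ := h N hN
  refine ⟨A.image (fun x : ℕ => (x : ℤ)), ?_, ?_, ?_⟩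
  · intro z hz
    obtain ⟨x, hx, rfl⟩ := Finset.mem_image.1 hz
    have := Finset.mem_Icc.1 (h1 hx)
    exact Finset.mem_Icc.2 ⟨by exact_mod_cast this.1, by exact_mod_cast this.2⟩
  · intro a ha b hb n hn e
    obtain ⟨x, hx, rfl⟩ := Finset.mem_image.1 ha
    obtain ⟨y, hy, rfl⟩ := Finset.mem_image.1 hb
    lift n to ℕ using (by omega)
    refine h2 y hy x hx n (by exact_mod_cast hn) ?_
    have : ((y + n ^ 2 : ℕ) : ℤ) = x := by push_cast; linarith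
    exact_mod_cast this
  · rw [Finset.card_image_of_injective _ Nat.cast_injective]
    exact h3

end Vale.Agent.Results.P042.SquareLower
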